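import Vale.Agent.P304.Main

namespace Vale.Agent.Results.P304.Polylog

open Vale.Agent.P304

universe u

theorem result : ∃ C : ℝ, ∀ k : ℕ, 2 ≤ k → ∀ (X : Type u) [MetricSpace X] (s : Fin k → X),
    ∃ (A : Policy X k) (B : ℝ), ∀ σ : List X,
      expCost A s σ ≤ C * Real.log k ^ 6 * opt s σ + B :=
  ⟨10 ^ 23, fun k hk X _ s =>
    policy_of_finBound (by omega) (by positivity) (finBound_main hk) X s⟩

end Vale.Agent.Results.P304.Polylog
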